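import Vale.Agent.P065.UB.H415.Frame

/-!
# P065, upper bound, line U: the output `Mach` of the machine (helper334's text, typed by helper604)

Everything is in the plane (no normalisation), and the structure is stable under deleting flags
(`Mach.shrink`).  `c`, `w0`, `m0` : centre, its window, slope of the line `l0` through `c`;
`o1 o2 o3` : the three reference apexes; `F` : the flags `(a, q)` (apex, point); `Wd (a, q)` : the
window of the pair; `δ` : the resolution.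

Class functions: `fX` (apex `o1`), `fY` (apex `o2`, normalised by `o3`), `fZ a` (apex `a`), with
`fZ a = fX + mu a * fY` exactly.
-/

set_option autoImplicit false

namespace Vale.Agent.P065.UB.MC

open Finset Vale.Agent.P065.UB Vale.Agent.P065.H183 Vale.Agent.P065.UB.H415

/-- `c_a = t / (1 - t)`, `t = (u_a - u_1) / (u_2 - u_1)` -/
noncomputable def cc (o1 o2 a : Pt) : ℝ := (a.1 - o1.1) / (o2.1 - a.1)

/-- the multiplier of the class `a` -/
noncomputable def mu (o1 o2 o3 a : Pt) : ℝ := cc o1 o2 a / cc o1 o2 o3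

/-- first coordinate: the class function of `o1` -/
noncomputable def fX (m0 : ℝ) (c o1 q : Pt) : ℝ := cf m0 c o1 q

/-- second coordinate: the class function of `o2`, normalised by `o3` -/
noncomputable def fY (m0 : ℝ) (c o1 o2 o3 q : Pt) : ℝ := cc o1 o2 o3 * cf m0 c o2 q

/-- the normalised class function of `a` -/
noncomputable def fZ (m0 : ℝ) (c o1 o2 a q : Pt) : ℝ :=
  (o2.1 - o1.1) / (o2.1 - a.1) * cf m0 c a q

/-- the pair `(a, q)` is a good flag: `a` is joined to `c` in `w0`, `a` is joined to `q` in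
`Wd (a, q) ≠ w0`, and the slope of `a' q` is in the same window, where `a'` is the vertical
projection of `a` to `l0` -/
structure Flag (Q : Finset Pt) (W : Finset ℕ) (I : ℕ → Set ℝ) (R : ℕ → Finset Pt)
    (c : Pt) (w0 : ℕ) (m0 : ℝ) (Wd : Pt × Pt → ℕ) (a q : Pt) : Prop where
  aQ : a ∈ Q
  qQ : q ∈ Q
  jc : Jn I R w0 c a
  wW : Wd (a, q) ∈ W
  w0 : Wd (a, q) ≠ w0
  jq : Jn I R (Wd (a, q)) a q
  ex : sl (prj m0 c a) q ∈ I (Wd (a, q))

open Classical in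
/-- **MACH0**: `Mach` without the field `deg`; `Mach0.prune` gives `Mach` -/
structure Mach0 (K lam : ℝ) (Q : Finset Pt) (W : Finset ℕ) (I : ℕ → Set ℝ) (R : ℕ → Finset Pt)
    (c : Pt) (w0 : ℕ) (m0 : ℝ) (o1 o2 o3 : Pt) (F : Finset (Pt × Pt)) (Wd : Pt × Pt → ℕ)
    (δ : ℝ) : Prop where
  w0W : w0 ∈ W
  cQ : c ∈ Q
  m0I : m0 ∈ I w0
  pos : 0 < δ
  /-- many flags -/
  card : (#Q : ℝ) ^ 2 ≤ K * lam * #F
  fl : ∀ e ∈ F, Flag Q W I R c w0 m0 Wd e.1 e.2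
  fl1 : ∀ e ∈ F, Flag Q W I R c w0 m0 Wd o1 e.2
  fl2 : ∀ e ∈ F, Flag Q W I R c w0 m0 Wd o2 e.2
  fl3 : ∀ e ∈ F, Flag Q W I R c w0 m0 Wd o3 e.2
  /-- all `q` on one side of `l0` -/
  above : (∀ e ∈ F, ht m0 c < ht m0 e.2) ∨ (∀ e ∈ F, ht m0 e.2 < ht m0 c)
  ne12 : o1 ≠ o2
  ne13 : o1 ≠ o3
  ne23 : o2 ≠ o3
  ne1 : ∀ e ∈ F, e.1 ≠ o1
  ne2 : ∀ e ∈ F, e.1 ≠ o2
  nice : ∀ e ∈ F, 1 / 2 ≤ |mu o1 o2 o3 e.1| ∧ |mu o1 o2 o3 e.1| ≤ 2
  /-- a point sees few apexes through one window -/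
  flag : ∀ (q : Pt) (w : ℕ), lam ^ 2 * #{a ∈ F.image Prod.fst | (a, q) ∈ F ∧ Wd (a, q) = w} ≤
    K * #Q
  /-- few points in a cell -/
  cell : ∀ x y : ℝ, lam ^ 2 * #{q ∈ F.image Prod.snd | |fX m0 c o1 q - x| ≤ δ ∧
    |fY m0 c o1 o2 o3 q - y| ≤ δ} ≤ K * #Q
  /-- the windows of the three classes are short -/
  wX : ∀ e ∈ F, ∀ e' ∈ F, Wd (o1, e.2) = Wd (o1, e'.2) →
    |fX m0 c o1 e.2 - fX m0 c o1 e'.2| ≤ δ
  wY : ∀ e ∈ F, ∀ e' ∈ F, Wd (o2, e.2) = Wd (o2, e'.2) →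
    |fY m0 c o1 o2 o3 e.2 - fY m0 c o1 o2 o3 e'.2| ≤ δ
  wZ : ∀ e ∈ F, ∀ e' ∈ F, e.1 = e'.1 → Wd e = Wd e' →
    |fZ m0 c o1 o2 e.1 e.2 - fZ m0 c o1 o2 e.1 e'.2| ≤ δ

open Classical in
/-- **MACH**: output of the machine -/
structure Mach (K lam : ℝ) (Q : Finset Pt) (W : Finset ℕ) (I : ℕ → Set ℝ) (R : ℕ → Finset Pt)
    (c : Pt) (w0 : ℕ) (m0 : ℝ) (o1 o2 o3 : Pt) (F : Finset (Pt × Pt)) (Wd : Pt × Pt → ℕ)
    (δ : ℝ) : Prop extends Mach0 K lam Q W I R c w0 m0 o1 o2 o3 F Wd δ where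
  /-- every used point is used by many apexes -/
  deg : ∀ e ∈ F, (#Q : ℝ) ≤ K * lam * #{a ∈ F.image Prod.fst | (a, e.2) ∈ F}

open Classical in
/-- **the dimension condition** for a `Mach`, with the exponents `q` and `e` -/
def MDim (q e : ℕ) (K lam : ℝ) (Q : Finset Pt) (c : Pt) (m0 : ℝ) (o1 o2 o3 : Pt)
    (F : Finset (Pt × Pt)) (δ : ℝ) : Prop :=
  ∀ x y r : ℝ, δ ≤ r → lam ^ (q + 1) * δ ^ q ≤ r ^ q ∨
    K ^ e * #{p ∈ F.image Prod.snd | |fX m0 c o1 p - x| ≤ 2 * r ∧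
      |fY m0 c o1 o2 o3 p - y| ≤ 2 * r} ≤ #Q

/-- **[MACHINE]** -/
def StMachine : Prop :=
  ∃ C : ℕ, ∀ (K lam : ℝ) (Q : Finset Pt) (W : Finset ℕ) (I : ℕ → Set ℝ) (R : ℕ → Finset Pt),
    JView K lam Q W I R → (C : ℝ) ≤ K → Real.logb 2 #Q ≤ K → K ^ C ≤ lam → lam ^ C ≤ #Q →
    ∃ (c : Pt) (w0 : ℕ) (m0 : ℝ) (o1 o2 o3 : Pt) (F : Finset (Pt × Pt)) (Wd : Pt × Pt → ℕ)
      (δ : ℝ), Mach (K ^ C) lam Q W I R c w0 m0 o1 o2 o3 F Wd δ

/-- **[MACHKILL]** a `Mach` with the dimension condition is contradictory: `e` is absolute, then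
`q`, then the constant `C` -/
def StMachKill : Prop :=
  ∃ e : ℕ, ∀ q : ℕ, 1 ≤ q → ∃ C : ℕ, ∀ (K K' lam : ℝ) (Q : Finset Pt) (W : Finset ℕ)
    (I : ℕ → Set ℝ) (R : ℕ → Finset Pt), JView K' lam Q W I R → K' ≤ K →
    ∀ (c : Pt) (w0 : ℕ) (m0 : ℝ) (o1 o2 o3 : Pt) (F : Finset (Pt × Pt)) (Wd : Pt × Pt → ℕ)
      (δ : ℝ), Mach K lam Q W I R c w0 m0 o1 o2 o3 F Wd δ → MDim q e K lam Q c m0 o1 o2 o3 F δ →
      K ^ C ≤ lam → lam ^ C ≤ #Q → False

section basic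

variable {K K' lam : ℝ} {Q : Finset Pt} {W : Finset ℕ} {I : ℕ → Set ℝ} {R : ℕ → Finset Pt}
  {c : Pt} {w0 : ℕ} {m0 : ℝ} {o1 o2 o3 : Pt} {F : Finset (Pt × Pt)} {Wd : Pt × Pt → ℕ} {δ : ℝ}

/-- **exact relation of the three class functions** -/
theorem fZ_eq {m0 : ℝ} {c o1 o2 o3 a q : Pt} (h2 : a.1 ≠ o2.1) (h3 : o3.1 ≠ o1.1)
    (h4 : o3.1 ≠ o2.1) :
    fZ m0 c o1 o2 a q = fX m0 c o1 q + mu o1 o2 o3 a * fY m0 c o1 o2 o3 q := by
  have e2 : o2.1 - a.1 ≠ 0 := sub_ne_zero.2 (Ne.symm h2)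
  have e3 : o3.1 - o1.1 ≠ 0 := sub_ne_zero.2 h3
  have e4 : o2.1 - o3.1 ≠ 0 := sub_ne_zero.2 (Ne.symm h4)
  unfold fZ fX fY mu cc cf H616.chU
  field_simp
  ring

namespace Mach0

/-- the apexes have distinct abscissas -/
theorem x12 (hV : JView K' lam Q W I R) (h : Mach0 K lam Q W I R c w0 m0 o1 o2 o3 F Wd δ)
    {e : Pt × Pt} (he : e ∈ F) : o1.1 ≠ o2.1 :=
  fun hc => h.ne12 (hV.xinj _ (h.fl1 e he).aQ _ (h.fl2 e he).aQ hc)

theorem x13 (hV : JView K' lam Q W I R) (h : Mach0 K lam Q W I R c w0 m0 o1 o2 o3 F Wd δ)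
    {e : Pt × Pt} (he : e ∈ F) : o1.1 ≠ o3.1 :=
  fun hc => h.ne13 (hV.xinj _ (h.fl1 e he).aQ _ (h.fl3 e he).aQ hc)

theorem x23 (hV : JView K' lam Q W I R) (h : Mach0 K lam Q W I R c w0 m0 o1 o2 o3 F Wd δ)
    {e : Pt × Pt} (he : e ∈ F) : o2.1 ≠ o3.1 :=
  fun hc => h.ne23 (hV.xinj _ (h.fl2 e he).aQ _ (h.fl3 e he).aQ hc)

theorem xa1 (hV : JView K' lam Q W I R) (h : Mach0 K lam Q W I R c w0 m0 o1 o2 o3 F Wd δ)
    {e : Pt × Pt} (he : e ∈ F) : e.1.1 ≠ o1.1 :=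
  fun hc => h.ne1 e he (hV.xinj _ (h.fl e he).aQ _ (h.fl1 e he).aQ hc)

theorem xa2 (hV : JView K' lam Q W I R) (h : Mach0 K lam Q W I R c w0 m0 o1 o2 o3 F Wd δ)
    {e : Pt × Pt} (he : e ∈ F) : e.1.1 ≠ o2.1 :=
  fun hc => h.ne2 e he (hV.xinj _ (h.fl e he).aQ _ (h.fl2 e he).aQ hc)

/-- the height of a used point is not zero -/
theorem V_ne (h : Mach0 K lam Q W I R c w0 m0 o1 o2 o3 F Wd δ) {e : Pt × Pt} (he : e ∈ F) :
    H616.chV m0 c e.2 ≠ 0 := by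
  unfold H616.chV
  rcases h.above with h1 | h1
  · exact sub_ne_zero.2 (h1 e he).ne'
  · exact sub_ne_zero.2 (h1 e he).ne

/-- the class function of a flag lies in the interval of its window -/
theorem cf_mem (h : Mach0 K lam Q W I R c w0 m0 o1 o2 o3 F Wd δ) {a q : Pt}
    (hf : Flag Q W I R c w0 m0 Wd a q) (hq : ∃ e ∈ F, e.2 = q) :
    cf m0 c a q ∈ H616.Zw m0 (I (Wd (a, q))) := by
  obtain ⟨e, he, rfl⟩ := hq
  rw [cf_eq hf.jq.2.2.1 (h.V_ne he)]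
  exact H616.mem_Zw m0 hf.ex

theorem Z_eq (hV : JView K' lam Q W I R) (h : Mach0 K lam Q W I R c w0 m0 o1 o2 o3 F Wd δ)
    {e : Pt × Pt} (he : e ∈ F) (q : Pt) :
    fZ m0 c o1 o2 e.1 q = fX m0 c o1 q + mu o1 o2 o3 e.1 * fY m0 c o1 o2 o3 q :=
  fZ_eq (h.xa2 hV he) (h.x13 hV he).symm (h.x23 hV he).symm

/-- larger constant -/
theorem mono (h : Mach0 K lam Q W I R c w0 m0 o1 o2 o3 F Wd δ) (hlam : 0 ≤ lam) {L : ℝ}
    (hL : K ≤ L) : Mach0 L lam Q W I R c w0 m0 o1 o2 o3 F Wd δ := by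
  have hq : (0 : ℝ) ≤ #Q := Nat.cast_nonneg _
  exact
    { h with
      card := h.card.trans (by gcongr)
      flag := fun q w => (h.flag q w).trans (mul_le_mul_of_nonneg_right hL hq)
      cell := fun x y => (h.cell x y).trans (mul_le_mul_of_nonneg_right hL hq) }

/-- a subfamily `F'` of at least `#F / D` flags and any smaller resolution `δ'` which
bounds the normalised widths of the windows used by `F'` -/
theorem sub (h : Mach0 K lam Q W I R c w0 m0 o1 o2 o3 F Wd δ) (hK : 0 ≤ K) (hlam : 0 ≤ lam)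
    {D δ' : ℝ} {F' : Finset (Pt × Pt)} (hD : 1 ≤ D) (hsub : F' ⊆ F) (hcard : (#F : ℝ) ≤ D * #F')
    (hpos : 0 < δ') (hle : δ' ≤ δ)
    (wX : ∀ e ∈ F', ∀ e' ∈ F', Wd (o1, e.2) = Wd (o1, e'.2) →
      |fX m0 c o1 e.2 - fX m0 c o1 e'.2| ≤ δ')
    (wY : ∀ e ∈ F', ∀ e' ∈ F', Wd (o2, e.2) = Wd (o2, e'.2) →
      |fY m0 c o1 o2 o3 e.2 - fY m0 c o1 o2 o3 e'.2| ≤ δ')
    (wZ : ∀ e ∈ F', ∀ e' ∈ F', e.1 = e'.1 → Wd e = Wd e' →
      |fZ m0 c o1 o2 e.1 e.2 - fZ m0 c o1 o2 e.1 e'.2| ≤ δ') :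
    Mach0 (K * D) lam Q W I R c w0 m0 o1 o2 o3 F' Wd δ' := by
  classical
  have hq : (0 : ℝ) ≤ #Q := Nat.cast_nonneg _
  have hKD : K ≤ K * D := le_mul_of_one_le_right hK hD
  refine
    { w0W := h.w0W
      cQ := h.cQ
      m0I := h.m0I
      pos := hpos
      card := ?_
      fl := fun e he => h.fl e (hsub he)
      fl1 := fun e he => h.fl1 e (hsub he)
      fl2 := fun e he => h.fl2 e (hsub he)
      fl3 := fun e he => h.fl3 e (hsub he)
      above := ?_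
      ne12 := h.ne12
      ne13 := h.ne13
      ne23 := h.ne23
      ne1 := fun e he => h.ne1 e (hsub he)
      ne2 := fun e he => h.ne2 e (hsub he)
      nice := fun e he => h.nice e (hsub he)
      flag := ?_
      cell := ?_
      wX := wX
      wY := wY
      wZ := wZ }
  · calc (#Q : ℝ) ^ 2 ≤ K * lam * #F := h.card
      _ ≤ K * lam * (D * #F') := mul_le_mul_of_nonneg_left hcard (by positivity)
      _ = K * D * lam * #F' := by ring
  · rcases h.above with h1 | h1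
    · exact Or.inl fun e he => h1 e (hsub he)
    · exact Or.inr fun e he => h1 e (hsub he)
  · intro q w
    refine le_trans ?_ ((h.flag q w).trans (mul_le_mul_of_nonneg_right hKD hq))
    refine mul_le_mul_of_nonneg_left ?_ (by positivity)
    have : #{a ∈ F'.image Prod.fst | (a, q) ∈ F' ∧ Wd (a, q) = w} ≤
        #{a ∈ F.image Prod.fst | (a, q) ∈ F ∧ Wd (a, q) = w} := by
      apply Finset.card_le_card
      intro a ha
      rw [Finset.mem_filter] at ha ⊢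
      exact ⟨Finset.image_subset_image hsub ha.1, hsub ha.2.1, ha.2.2⟩
    exact_mod_cast this
  · intro x y
    refine le_trans ?_ ((h.cell x y).trans (mul_le_mul_of_nonneg_right hKD hq))
    refine mul_le_mul_of_nonneg_left ?_ (by positivity)
    have : #{q ∈ F'.image Prod.snd | |fX m0 c o1 q - x| ≤ δ' ∧ |fY m0 c o1 o2 o3 q - y| ≤ δ'} ≤
        #{q ∈ F.image Prod.snd | |fX m0 c o1 q - x| ≤ δ ∧ |fY m0 c o1 o2 o3 q - y| ≤ δ} := by
      apply Finset.card_le_card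
      intro q hq
      rw [Finset.mem_filter] at hq ⊢
      exact ⟨Finset.image_subset_image hsub hq.1, hq.2.1.trans hle, hq.2.2.trans hle⟩
    exact_mod_cast this

/-- the number of flags of a point -/
theorem card_fib (F : Finset (Pt × Pt)) (q : Pt) :
    #{e ∈ F | e.2 = q} = #{a ∈ F.image Prod.fst | (a, q) ∈ F} := by
  classical
  symm
  apply Finset.card_bij (fun a _ => (a, q))
  · intro a ha
    exact Finset.mem_filter.2 ⟨(Finset.mem_filter.1 ha).2, rfl⟩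
  · intro a _ b _ hab
    exact congrArg Prod.fst hab
  · intro e he
    obtain ⟨h1, h2⟩ := Finset.mem_filter.1 he
    refine ⟨e.1, Finset.mem_filter.2 ⟨Finset.mem_image_of_mem _ h1, ?_⟩, ?_⟩
    · rw [← h2]; exact h1
    · rw [← h2]

/-- delete the flags of the points with few flags -/
theorem exists_prune (F : Finset (Pt × Pt)) (Q : Finset Pt) (hQ : ∀ e ∈ F, e.2 ∈ Q) :
    ∃ F' ⊆ F, #F ≤ 2 * #F' ∧
      ∀ e ∈ F', #F ≤ 2 * #Q * #{a ∈ F'.image Prod.fst | (a, e.2) ∈ F'} := by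
  classical
  set F' : Finset (Pt × Pt) := {e ∈ F | #F ≤ 2 * #Q * #{e' ∈ F | e'.2 = e.2}} with hF'
  have hsub : F' ⊆ F := Finset.filter_subset _ _
  refine ⟨F', hsub, ?_, ?_⟩
  · set B : Finset (Pt × Pt) := {e ∈ F | ¬ #F ≤ 2 * #Q * #{e' ∈ F | e'.2 = e.2}} with hB
    have h1 : #F' + #B = #F := Finset.card_filter_add_card_filter_not _
    have h2 : 2 * #B ≤ #F := by
      rcases Finset.eq_empty_or_nonempty Q with h0 | h0
      · have : B = ∅ := by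
          rw [Finset.eq_empty_iff_forall_notMem]
          intro e he
          have := hQ e (Finset.filter_subset _ _ he)
          rw [h0] at this
          exact absurd this (Finset.notMem_empty _)
        rw [this]; simp
      · have hQ0 : 0 < #Q := Finset.card_pos.2 h0
        have h3 : #B = ∑ q ∈ Q, #{e ∈ B | e.2 = q} :=
          Finset.card_eq_sum_card_fiberwise fun e he => hQ e (Finset.filter_subset _ _ he)
        have h4 : ∀ q ∈ Q, 2 * #Q * #{e ∈ B | e.2 = q} ≤ #F := by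
          intro q _
          rcases Finset.eq_empty_or_nonempty {e ∈ B | e.2 = q} with h5 | ⟨e, he⟩
          · rw [h5]; simp
          · obtain ⟨h6, h7⟩ := Finset.mem_filter.1 he
            have h8 := (Finset.mem_filter.1 h6).2
            rw [h7] at h8
            have h9 : #{e ∈ B | e.2 = q} ≤ #{e' ∈ F | e'.2 = q} :=
              Finset.card_le_card (Finset.filter_subset_filter _ (Finset.filter_subset _ _))
            have h10 : 2 * #Q * #{e ∈ B | e.2 = q} ≤ 2 * #Q * #{e' ∈ F | e'.2 = q} :=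
              Nat.mul_le_mul_left _ h9
            omega
        have h5 : #Q * (2 * #B) ≤ #Q * #F := by
          calc #Q * (2 * #B) = ∑ q ∈ Q, 2 * #Q * #{e ∈ B | e.2 = q} := by
                rw [← Finset.mul_sum, ← h3]; ring
            _ ≤ ∑ _q ∈ Q, #F := Finset.sum_le_sum h4
            _ = #Q * #F := by rw [Finset.sum_const, smul_eq_mul]
        exact Nat.le_of_mul_le_mul_left h5 hQ0
    omega
  · intro e he
    have h1 := (Finset.mem_filter.1 he).2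
    rw [← card_fib]
    have h2 : ({e' ∈ F' | e'.2 = e.2} : Finset (Pt × Pt)) = {e' ∈ F | e'.2 = e.2} := by
      ext e'
      constructor
      · intro h3
        obtain ⟨h3, h4⟩ := Finset.mem_filter.1 h3
        exact Finset.mem_filter.2 ⟨hsub h3, h4⟩
      · intro h3
        obtain ⟨h3, h4⟩ := Finset.mem_filter.1 h3
        refine Finset.mem_filter.2 ⟨Finset.mem_filter.2 ⟨h3, ?_⟩, h4⟩
        rw [h4]; exact h1
    rw [h2]
    exact h1

/-- **[PRUNE]** every `Mach0` contains a `Mach` with at least half of the flags -/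
theorem prune (h : Mach0 K lam Q W I R c w0 m0 o1 o2 o3 F Wd δ) (hK : 0 ≤ K) (hlam : 0 ≤ lam) :
    ∃ F' ⊆ F, #F ≤ 2 * #F' ∧ Mach (2 * K) lam Q W I R c w0 m0 o1 o2 o3 F' Wd δ := by
  classical
  obtain ⟨F', hsub, hcard, hdeg⟩ := exists_prune F Q fun e he => (h.fl e he).qQ
  have hcard' : (#F : ℝ) ≤ 2 * #F' := by exact_mod_cast hcard
  have h0 := h.sub hK hlam (D := 2) (by norm_num) hsub hcard' h.pos le_rfl
    (fun e he e' he' => h.wX e (hsub he) e' (hsub he'))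
    (fun e he e' he' => h.wY e (hsub he) e' (hsub he'))
    (fun e he e' he' => h.wZ e (hsub he) e' (hsub he'))
  rw [mul_comm K 2] at h0
  refine ⟨F', hsub, hcard, { h0 with deg := ?_ }⟩
  intro e he
  have h1 := hdeg e he
  set d : ℕ := #{a ∈ F'.image Prod.fst | (a, e.2) ∈ F'} with hd
  have h1' : (#F : ℝ) ≤ 2 * #Q * d := by exact_mod_cast h1
  have hQ0 : (0 : ℝ) < #Q := by
    have : 0 < #Q := Finset.card_pos.2 ⟨e.2, (h.fl e (hsub he)).qQ⟩
    exact_mod_cast this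
  have h2 : (#Q : ℝ) * #Q ≤ (2 * K * lam * d) * #Q := by
    calc (#Q : ℝ) * #Q = (#Q : ℝ) ^ 2 := by ring
      _ ≤ K * lam * #F := h.card
      _ ≤ K * lam * (2 * #Q * d) := mul_le_mul_of_nonneg_left h1' (by positivity)
      _ = (2 * K * lam * d) * #Q := by ring
  exact le_of_mul_le_mul_right h2 hQ0

end Mach0

namespace Mach

/-- larger constant -/
theorem mono (h : Mach K lam Q W I R c w0 m0 o1 o2 o3 F Wd δ) (hlam : 0 ≤ lam) {L : ℝ}
    (hL : K ≤ L) : Mach L lam Q W I R c w0 m0 o1 o2 o3 F Wd δ :=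
  { h.toMach0.mono hlam hL with
    deg := fun e he => (h.deg e he).trans (by gcongr) }

/-- **[SHRINK]** a subfamily `F₁` of at least `#F / D` flags and any smaller resolution `δ'` which
bounds the normalised widths of the windows used by `F₁` -/
theorem shrink (h : Mach K lam Q W I R c w0 m0 o1 o2 o3 F Wd δ) (hK : 0 ≤ K) (hlam : 0 ≤ lam)
    {D δ' : ℝ} {F₁ : Finset (Pt × Pt)} (hD : 1 ≤ D) (hsub : F₁ ⊆ F) (hcard : (#F : ℝ) ≤ D * #F₁)
    (hpos : 0 < δ') (hle : δ' ≤ δ)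
    (wX : ∀ e ∈ F₁, ∀ e' ∈ F₁, Wd (o1, e.2) = Wd (o1, e'.2) →
      |fX m0 c o1 e.2 - fX m0 c o1 e'.2| ≤ δ')
    (wY : ∀ e ∈ F₁, ∀ e' ∈ F₁, Wd (o2, e.2) = Wd (o2, e'.2) →
      |fY m0 c o1 o2 o3 e.2 - fY m0 c o1 o2 o3 e'.2| ≤ δ')
    (wZ : ∀ e ∈ F₁, ∀ e' ∈ F₁, e.1 = e'.1 → Wd e = Wd e' →
      |fZ m0 c o1 o2 e.1 e.2 - fZ m0 c o1 o2 e.1 e'.2| ≤ δ') :
    ∃ F₂ ⊆ F₁, #F₁ ≤ 2 * #F₂ ∧
      Mach (2 * (K * D)) lam Q W I R c w0 m0 o1 o2 o3 F₂ Wd δ' :=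
  (h.toMach0.sub hK hlam hD hsub hcard hpos hle wX wY wZ).prune
    (mul_nonneg hK (by linarith)) hlam

end Mach

end basic

end Vale.Agent.P065.UB.MC
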