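import Vale.Agent.P065.UB.Mach.Mid
import Vale.Agent.P065.UB.H433.Mach2
import Vale.Agent.P065.H989.PolesT

/-!
# P065, upper bound, line U: the machine `MC.StMachine` is a theorem (helper352)
-/

set_option autoImplicit false

namespace Vale.Agent.P065.UB.MC

open Finset Vale.Agent.P065.UB Vale.Agent.P065.H183

/-- **[MACH2a]** (helper433's `sysM`) -/
theorem stSysM : StSysM := by
  refine ⟨2, ?_⟩
  intro K₀ K lam Q W I R c w0 m0 Pr Wd o1 o2 o3 F hV hKK hP _ _
  obtain ⟨p, u, q, v, r, w, hS⟩ := H433.sysM hP hV hKK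
  exact ⟨_, p, u, _, q, v, _, r, w, hS⟩

/-- **the machine** -/
theorem stMachine : StMachine := machine_of H989.stPoles stSysM

end Vale.Agent.P065.UB.MC
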