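import Vale.Agent.P065.UB.Mach.Defs
import Vale.Agent.P065.H240.Cor
import Vale.Agent.P065.H989.PolesDefs

/-!
# P065, upper bound, line U: `Poles` (989), `Sys` (240) and `Mach` (604) put together (helper352)

`StSysM`: [MACH2a] (helper433), `Poles` gives helper240's `Sys` with the class functions of `Mach`.
`machine_of : StPoles → StSysM → StMachine`.
-/

set_option autoImplicit false

namespace Vale.Agent.P065.UB.MC

open Finset Vale.Agent.P065.UB Vale.Agent.P065.H183 Vale.Agent.P065.UB.H415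
open Vale.Agent.P065.H989

open Classical in
/-- **[MACH2a]**: the three pencils of windows of the classes `o1`, `o2`, `a` -/
def StSysM : Prop :=
  ∃ C : ℕ, ∀ (K₀ K lam : ℝ) (Q : Finset Pt) (W : Finset ℕ) (I : ℕ → Set ℝ) (R : ℕ → Finset Pt)
    (c : Pt) (w0 : ℕ) (m0 : ℝ) (Pr : Finset (Pt × Pt)) (Wd : Pt × Pt → ℕ) (o1 o2 o3 : Pt)
    (F : Finset (Pt × Pt)), JView K₀ lam Q W I R → K₀ ≤ K →
    Poles K lam Q W I R c w0 m0 Pr Wd o1 o2 o3 F → K ^ C ≤ lam → lam ^ C ≤ #Q →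
    ∃ (LI : Finset ℕ) (p u : ℕ → ℝ) (LJ : Finset ℕ) (q v : ℕ → ℝ) (LK : Pt → Finset ℕ)
      (r w : Pt → ℕ → ℝ),
      H240.Sys (K ^ C) lam (#Q / lam ^ 2) (F.image Prod.fst) (F.image Prod.snd)
        (fun a => {z ∈ F.image Prod.snd | (a, z) ∈ F})
        (fX m0 c o1) (fY m0 c o1 o2 o3) (fZ m0 c o1 o2)
        LI p u (fun z => Wd (o1, z)) LJ q v (fun z => Wd (o2, z))
        LK r w (fun a z => Wd (a, z))

variable {K₀ K K₁ lam : ℝ} {Q : Finset Pt} {W : Finset ℕ} {I : ℕ → Set ℝ} {R : ℕ → Finset Pt}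
  {c : Pt} {w0 : ℕ} {m0 : ℝ} {Pr : Finset (Pt × Pt)} {Wd : Pt × Pt → ℕ} {o1 o2 o3 : Pt}
  {F : Finset (Pt × Pt)}

/-- the flags of a `Cher` -/
theorem flag_of_cher (h : Cher K lam Q W I R c w0 m0 Pr Wd) {a q : Pt} (he : (a, q) ∈ Pr) :
    Flag Q W I R c w0 m0 Wd a q where
  aQ := h.mem1 _ he
  qQ := h.mem2 _ he
  jc := h.jc _ he
  wW := h.wdW _ he
  w0 := h.wd0 _ he
  jq := h.jq _ he
  ex := h.ex _ he

open Classical in
/-- a square of half-side `2 δ` is covered by four squares of half-side `δ` -/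
theorem four_cells (G : Finset Pt) (X Y : Pt → ℝ) (δ x y : ℝ) {N : ℝ}
    (h : ∀ x y : ℝ, (#{q ∈ G | |X q - x| ≤ δ ∧ |Y q - y| ≤ δ} : ℝ) ≤ N) :
    (#{q ∈ G | |X q - x| ≤ 2 * δ ∧ |Y q - y| ≤ 2 * δ} : ℝ) ≤ 4 * N := by
  have hsub : ({q ∈ G | |X q - x| ≤ 2 * δ ∧ |Y q - y| ≤ 2 * δ} : Finset Pt) ⊆
      ((({q ∈ G | |X q - (x - δ)| ≤ δ ∧ |Y q - (y - δ)| ≤ δ} : Finset Pt) ∪
      ({q ∈ G | |X q - (x - δ)| ≤ δ ∧ |Y q - (y + δ)| ≤ δ} : Finset Pt)) ∪
      ({q ∈ G | |X q - (x + δ)| ≤ δ ∧ |Y q - (y - δ)| ≤ δ} : Finset Pt)) ∪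
      ({q ∈ G | |X q - (x + δ)| ≤ δ ∧ |Y q - (y + δ)| ≤ δ} : Finset Pt) := by
    intro q hq
    obtain ⟨hq, h1, h2⟩ := mem_filter.1 hq
    have key : ∀ t s : ℝ, |t - s| ≤ 2 * δ → |t - (s - δ)| ≤ δ ∨ |t - (s + δ)| ≤ δ := by
      intro t s hts
      rw [abs_le] at hts
      rcases le_total t s with h' | h'
      · left; rw [abs_le]; constructor <;> linarith
      · right; rw [abs_le]; constructor <;> linarith
    rcases key _ _ h1 with g1 | g1 <;> rcases key _ _ h2 with g2 | g2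
    · exact mem_union_left _ (mem_union_left _ (mem_union_left _ (mem_filter.2 ⟨hq, g1, g2⟩)))
    · exact mem_union_left _ (mem_union_left _ (mem_union_right _ (mem_filter.2 ⟨hq, g1, g2⟩)))
    · exact mem_union_left _ (mem_union_right _ (mem_filter.2 ⟨hq, g1, g2⟩))
    · exact mem_union_right _ (mem_filter.2 ⟨hq, g1, g2⟩)
  have h0 : (#{q ∈ G | |X q - x| ≤ 2 * δ ∧ |Y q - y| ≤ 2 * δ} : ℝ) ≤
      #({q ∈ G | |X q - (x - δ)| ≤ δ ∧ |Y q - (y - δ)| ≤ δ} : Finset Pt) +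
      #({q ∈ G | |X q - (x - δ)| ≤ δ ∧ |Y q - (y + δ)| ≤ δ} : Finset Pt) +
      #({q ∈ G | |X q - (x + δ)| ≤ δ ∧ |Y q - (y - δ)| ≤ δ} : Finset Pt) +
      #({q ∈ G | |X q - (x + δ)| ≤ δ ∧ |Y q - (y + δ)| ≤ δ} : Finset Pt) := by
    have h1 := card_le_card hsub
    have h2 := h1.trans (card_union_le _ _)
    have h3 := h2.trans (Nat.add_le_add_right (card_union_le _ _) _)
    have h4 := h3.trans (Nat.add_le_add_right (Nat.add_le_add_right (card_union_le _ _) _) _)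
    exact_mod_cast h4
  have g1 := h (x - δ) (y - δ)
  have g2 := h (x - δ) (y + δ)
  have g3 := h (x + δ) (y - δ)
  have g4 := h (x + δ) (y + δ)
  linarith

open Classical in
/-- **[MACH2b]** `Poles` and `Sys` give a `Mach` -/
theorem mach_of_sys (hlam : 1 ≤ lam) (hQ : 0 < #Q)
    (hP : Poles K lam Q W I R c w0 m0 Pr Wd o1 o2 o3 F)
    {LI : Finset ℕ} {p u : ℕ → ℝ} {LJ : Finset ℕ} {q v : ℕ → ℝ} {LK : Pt → Finset ℕ}
    {r w : Pt → ℕ → ℝ}
    (hS : H240.Sys K₁ lam (#Q / lam ^ 2) (F.image Prod.fst) (F.image Prod.snd)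
        (fun a => {z ∈ F.image Prod.snd | (a, z) ∈ F})
        (fX m0 c o1) (fY m0 c o1 o2 o3) (fZ m0 c o1 o2)
        LI p u (fun z => Wd (o1, z)) LJ q v (fun z => Wd (o2, z))
        LK r w (fun a z => Wd (a, z)))
    (hbig : 12 * 10 ^ 7 * K₁ ^ 20 ≤ lam) :
    ∃ (F' : Finset (Pt × Pt)) (δ : ℝ),
      Mach (2 * (64 * 10 ^ 21 * K * K₁ ^ 50)) lam Q W I R c w0 m0 o1 o2 o3 F' Wd δ := by
  have hlam0 : 0 < lam := lt_of_lt_of_le one_pos hlam
  have hK2 : 2 ≤ K := hP.two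
  obtain ⟨a₀, ha₀⟩ := hS.ne
  have hK1 : 1 ≤ K₁ := (hS.tri a₀ ha₀).oneK
  have hK0 : 0 < K₁ := by linarith
  have hQ0 : (0 : ℝ) < #Q := by exact_mod_cast hQ
  obtain ⟨δ, hδ, H, E, hHC, hE, hEc, hcell, -, -⟩ := H240.oneres_pairs hS hbig
  have hEF : ∀ e ∈ E, e ∈ F := fun e he => (mem_filter.1 (hE e he).2.2.1).2
  have hEPr : ∀ e ∈ E, e ∈ Pr := fun e he => hP.sub (hEF e he)
  -- number of classes
  have hA : (#Q : ℝ) ≤ K * lam * #(F.image Prod.fst) := by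
    have h1 : (#F : ℝ) ≤ #(F.image Prod.fst) * #Q := by
      have : F ⊆ (F.image Prod.fst) ×ˢ Q := by
        intro e he
        exact mem_product.2 ⟨mem_image_of_mem _ he, hP.cher.mem2 e (hP.sub he)⟩
      have h2 := card_le_card this
      rw [card_product] at h2
      exact_mod_cast h2
    have h2 : (#Q : ℝ) * #Q ≤ K * lam * #(F.image Prod.fst) * #Q := by
      calc (#Q : ℝ) * #Q = (#Q : ℝ) ^ 2 := by ring
        _ ≤ K * lam * #F := hP.card
        _ ≤ K * lam * (#(F.image Prod.fst) * #Q) :=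
            mul_le_mul_of_nonneg_left h1 (by positivity)
        _ = K * lam * #(F.image Prod.fst) * #Q := by ring
    exact le_of_mul_le_mul_right h2 hQ0
  have hcardE : (#Q : ℝ) ^ 2 ≤ 64 * 10 ^ 21 * K * K₁ ^ 50 * lam * #E := by
    have h1 : lam ^ 2 * (#Q / lam ^ 2 : ℝ) = #Q := by
      field_simp
    rw [h1] at hEc
    have h3 : (15360 : ℝ) ^ 2 * K₁ ^ 21 ≤ 64 * 10 ^ 21 * K₁ ^ 50 := by
      have : K₁ ^ 21 ≤ K₁ ^ 50 := pow_le_pow_right₀ (by linarith) (by norm_num)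
      have h22 : 0 < K₁ ^ 21 := by positivity
      nlinarith
    calc (#Q : ℝ) ^ 2 = #Q * #Q := by ring
      _ ≤ #Q * (K * lam * #(F.image Prod.fst)) := mul_le_mul_of_nonneg_left hA hQ0.le
      _ = K * lam * (#Q * #(F.image Prod.fst)) := by ring
      _ ≤ K * lam * (15360 ^ 2 * K₁ ^ 21 * #E) := mul_le_mul_of_nonneg_left hEc (by positivity)
      _ = 15360 ^ 2 * K₁ ^ 21 * (K * lam * #E) := by ring
      _ ≤ 64 * 10 ^ 21 * K₁ ^ 50 * (K * lam * #E) :=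
          mul_le_mul_of_nonneg_right h3 (by positivity)
      _ = 64 * 10 ^ 21 * K * K₁ ^ 50 * lam * #E := by ring
  have h50 : 1 ≤ K₁ ^ 50 := one_le_pow₀ hK1
  have hKbig : K ≤ 64 * 10 ^ 21 * K * K₁ ^ 50 := by
    have h1 : K * 1 ≤ K * K₁ ^ 50 := mul_le_mul_of_nonneg_left h50 (by linarith)
    nlinarith
  -- the values
  have hXw : ∀ e ∈ E, |fX m0 c o1 e.2 - p (Wd (o1, e.2))| ≤ δ := by
    intro e he
    obtain ⟨h1, h2, h3, h4, h5, h6⟩ := hE e he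
    exact ((hS.tri e.1 h1).nx e.2 h3).trans h4
  have hYw : ∀ e ∈ E, |fY m0 c o1 o2 o3 e.2 - q (Wd (o2, e.2))| ≤ δ := by
    intro e he
    obtain ⟨h1, h2, h3, h4, h5, h6⟩ := hE e he
    exact ((hS.tri e.1 h1).ny e.2 h3).trans h5
  have hZw : ∀ e ∈ E, |fZ m0 c o1 o2 e.1 e.2 - r e.1 (Wd e)| ≤ δ := by
    intro e he
    obtain ⟨h1, h2, h3, h4, h5, h6⟩ := hE e he
    exact ((hS.tri e.1 h1).nz e.2 h3).trans h6
  have two : ∀ x y s : ℝ, |x - s| ≤ δ → |y - s| ≤ δ → |x - y| ≤ 2 * δ := by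
    intro x y s h1 h2
    rw [abs_le] at h1 h2 ⊢
    constructor <;> linarith [h1.1, h1.2, h2.1, h2.2]
  have hM : Mach0 (64 * 10 ^ 21 * K * K₁ ^ 50) lam Q W I R c w0 m0 o1 o2 o3 E Wd (2 * δ) := by
    refine
      { w0W := hP.cher.w0W
        cQ := hP.cher.cQ
        m0I := hP.cher.m0I
        pos := by linarith
        card := hcardE
        fl := fun e he => flag_of_cher hP.cher (hEPr e he)
        fl1 := fun e he => flag_of_cher hP.cher (hP.e1 e (hEF e he))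
        fl2 := fun e he => flag_of_cher hP.cher (hP.e2 e (hEF e he))
        fl3 := fun e he => flag_of_cher hP.cher (hP.e3 e (hEF e he))
        above := ?_
        ne12 := hP.n12
        ne13 := hP.n13
        ne23 := hP.n23
        ne1 := fun e he => hP.a1 e (hEF e he)
        ne2 := fun e he => hP.a2 e (hEF e he)
        nice := fun e he => ⟨hP.cr1 e (hEF e he), hP.cr2 e (hEF e he)⟩
        flag := ?_
        cell := ?_
        wX := ?_
        wY := ?_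
        wZ := ?_ }
    · rcases hP.cher.above with h1 | h1
      · exact Or.inl fun e he => h1 e (hEPr e he)
      · exact Or.inr fun e he => h1 e (hEPr e he)
    · intro z s
      refine le_trans ?_ ((hP.flag z s).trans (mul_le_mul_of_nonneg_right hKbig hQ0.le))
      refine mul_le_mul_of_nonneg_left ?_ (by positivity)
      have : #{a ∈ E.image Prod.fst | (a, z) ∈ E ∧ Wd (a, z) = s} ≤
          #{a ∈ Pr.image Prod.fst | (a, z) ∈ Pr ∧ Wd (a, z) = s} := by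
        apply card_le_card
        intro a ha
        obtain ⟨h1, h2, h3⟩ := mem_filter.1 ha
        exact mem_filter.2 ⟨mem_image.2 ⟨(a, z), hEPr _ h2, rfl⟩, hEPr _ h2, h3⟩
      exact_mod_cast this
    · intro x y
      have h1 := four_cells (E.image Prod.snd) (fX m0 c o1) (fY m0 c o1 o2 o3) δ x y
        (N := 16 * 10 ^ 21 * K₁ ^ 50 * (#Q / lam ^ 2)) (by
          intro x' y'
          refine le_trans ?_ (hcell δ x' y' le_rfl)
          have : #{z ∈ E.image Prod.snd | |fX m0 c o1 z - x'| ≤ δ ∧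
              |fY m0 c o1 o2 o3 z - y'| ≤ δ} ≤
              #{z ∈ H | |fX m0 c o1 z - x'| ≤ δ ∧ |fY m0 c o1 o2 o3 z - y'| ≤ δ} := by
            apply card_le_card
            intro z hz
            obtain ⟨h1, h2⟩ := mem_filter.1 hz
            obtain ⟨e, he, rfl⟩ := mem_image.1 h1
            exact mem_filter.2 ⟨(hE e he).2.1, h2⟩
          exact_mod_cast this)
      calc lam ^ 2 * (#{z ∈ E.image Prod.snd | |fX m0 c o1 z - x| ≤ 2 * δ ∧
              |fY m0 c o1 o2 o3 z - y| ≤ 2 * δ} : ℝ)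
          ≤ lam ^ 2 * (4 * (16 * 10 ^ 21 * K₁ ^ 50 * (#Q / lam ^ 2))) :=
            mul_le_mul_of_nonneg_left h1 (by positivity)
        _ = 64 * 10 ^ 21 * 1 * K₁ ^ 50 * #Q := by
            field_simp
            ring
        _ ≤ 64 * 10 ^ 21 * K * K₁ ^ 50 * #Q := by
            gcongr
            linarith
    · intro e he e' he' hw
      have h1 := hXw e he
      have h2 := hXw e' he'
      rw [← hw] at h2
      exact two _ _ _ h1 h2
    · intro e he e' he' hw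
      have h1 := hYw e he
      have h2 := hYw e' he'
      rw [← hw] at h2
      exact two _ _ _ h1 h2
    · intro e he e' he' h1 hw
      have g1 := hZw e he
      have g2 := hZw e' he'
      rw [← hw, ← h1] at g2
      exact two _ _ _ g1 g2
  obtain ⟨F', -, -, hF'⟩ := hM.prune (by positivity) hlam0.le
  exact ⟨F', 2 * δ, hF'⟩

/-- **the machine** -/
theorem machine_of (h1 : StPoles) (h2 : StSysM) : StMachine := by
  obtain ⟨C₁, h1⟩ := h1
  obtain ⟨C₂, h2⟩ := h2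
  refine ⟨C₁ * C₂ * 50 + 77 + C₁ + C₂, ?_⟩
  intro K lam Q W I R hV _ _ hlam hQ
  have hK2 := hV.two
  have hK1 : (1 : ℝ) ≤ K := by linarith
  have hl1 := hV.one
  have hpow : ∀ n : ℕ, n ≤ C₁ * C₂ * 50 + 77 + C₁ + C₂ → K ^ n ≤ lam := fun n hn =>
    (pow_le_pow_right₀ hK1 hn).trans hlam
  have hpow' : ∀ n : ℕ, n ≤ C₁ * C₂ * 50 + 77 + C₁ + C₂ → lam ^ n ≤ #Q := fun n hn =>
    (pow_le_pow_right₀ hl1 hn).trans hQ
  have hQ0 : 0 < #Q := by
    have h3 : (1 : ℝ) ≤ #Q := (one_le_pow₀ hl1).trans hQ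
    exact_mod_cast lt_of_lt_of_le one_pos h3
  obtain ⟨c, w0, m0, Pr, Wd, o1, o2, o3, F, hP⟩ := h1 K lam Q W I R hV (hpow _ (by omega))
    (hpow' _ (by omega))
  have hC₁ : C₁ ≠ 0 := by
    rintro rfl
    have := hP.two
    rw [pow_zero] at this
    norm_num at this
  have hKC : K ≤ K ^ C₁ := le_self_pow₀ hK1 hC₁
  obtain ⟨LI, p, u, LJ, q, v, LK, r, w, hS⟩ := h2 K (K ^ C₁) lam Q W I R c w0 m0 Pr Wd o1 o2 o3 F
    hV hKC hP (by rw [← pow_mul]; exact hpow _ (by omega)) (hpow' _ (by omega))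
  rw [← pow_mul] at hS
  have h27 : (12 * 10 ^ 7 : ℝ) ≤ K ^ 27 :=
    (by norm_num : (12 * 10 ^ 7 : ℝ) ≤ 2 ^ 27).trans (pow_le_pow_left₀ (by norm_num) hK2 27)
  obtain ⟨F', δ, hM⟩ := mach_of_sys hl1 hQ0 hP hS (by
    calc (12 * 10 ^ 7 : ℝ) * (K ^ (C₁ * C₂)) ^ 20 ≤ K ^ 27 * (K ^ (C₁ * C₂)) ^ 20 :=
          mul_le_mul_of_nonneg_right h27 (by positivity)
      _ = K ^ (27 + C₁ * C₂ * 20) := by rw [← pow_mul, ← pow_add]
      _ ≤ lam := hpow _ (by omega))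
  refine ⟨c, w0, m0, o1, o2, o3, F', Wd, δ, hM.mono (by linarith) ?_⟩
  have h77 : (2 * (64 * 10 ^ 21) : ℝ) ≤ K ^ 77 :=
    (by norm_num : (2 * (64 * 10 ^ 21) : ℝ) ≤ 2 ^ 77).trans
      (pow_le_pow_left₀ (by norm_num) hK2 77)
  calc 2 * (64 * 10 ^ 21 * K ^ C₁ * (K ^ (C₁ * C₂)) ^ 50)
      = 2 * (64 * 10 ^ 21) * (K ^ C₁ * (K ^ (C₁ * C₂)) ^ 50) := by ring
    _ ≤ K ^ 77 * (K ^ C₁ * (K ^ (C₁ * C₂)) ^ 50) := mul_le_mul_of_nonneg_right h77 (by positivity)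
    _ = K ^ (77 + (C₁ + C₁ * C₂ * 50)) := by rw [← pow_mul, ← pow_add, ← pow_add]
    _ ≤ K ^ (C₁ * C₂ * 50 + 77 + C₁ + C₂) := pow_le_pow_right₀ hK1 (by omega)

end Vale.Agent.P065.UB.MC
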